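import Vale.Agent.P167.Final.Question

/-!
# P167: the uniform form of the convergence of the interfaces (definitions)
-/

set_option autoImplicit false

namespace Vale.Agent.P167.H947.Uni

open MeasureTheory Filter Topology Set
open Vale.Agent.P167.Final

/-- A homeomorphism `Φ` of the plane stands for the marked Jordan domain `(D; a, b)` with its
parametrized boundary: `D` is the image of the open unit disc, `a = Φ (1, 0)`, `b = Φ (-1, 0)`. -/
abbrev Dom := (ℝ × ℝ) ≃ₜ (ℝ × ℝ)

/-- The point of the boundary of `D` with the parameter `t`. -/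
noncomputable def bd (Φ : Dom) (t : ℝ) : ℂ := toC (Φ (circ t))

/-- A single lattice domain which is `η`-close to `(D; a, b)`: the counterclockwise polygon `p` on the
lattice of mesh `δ < η`, with the enclosed faces `S`, the free vertices `p 0, …, p (k - 1)` and the
wired vertices `p k, …, p (N - 1)`; with a common parametrisation, its boundary is at distance less
than `η` from the boundary of `D`, the marks corresponding to the marks. -/
structure Close (η : ℝ) (Φ : Dom) (δ : ℝ) {N : ℕ} (k : ℕ) (p : ZMod N → ℤ × ℤ)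
    (S : Finset (ℤ × ℤ)) : Prop where
  mesh_pos : 0 < δ
  mesh_lt : δ < η
  free : 0 < k
  wired : k < N
  polygon : IsPolygon p
  encloses : Encloses p S
  close : ∃ s : ℕ → ℝ, Monotone s ∧ s 0 = 0 ∧ s k = Real.pi ∧ s N = 2 * Real.pi ∧
    ∀ i < N, ∀ t ∈ Icc (s i) (s (i + 1)), dist ((δ : ℂ) * pt (p i)) (bd Φ t) < η

/-- `G` is almost surely a curve from `a` to `b`, the curve `ψ ∘ γ` with the time reparametrized
onto `[0,1]`. -/
def IsCurve {Ω : Type} [MeasurableSpace Ω] (P : Measure Ω) (γ : Ω → ℝ → ℂ) (Φ : Dom) (ψ : ℂ → ℂ)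
    (G : Ω → C(unitInterval, ℂ)) : Prop :=
  ∀ᵐ ω ∂P, G ω 0 = bd Φ 0 ∧ G ω 1 = bd Φ Real.pi ∧
    ∀ t : unitInterval, (t : ℝ) < 1 → G ω t = ψ (γ ω (t / (1 - t)))

/-- Convergence of marked domains: uniform convergence of the parametrized boundaries. -/
def DomTendsto (Φn : ℕ → Dom) (Φ : Dom) : Prop :=
  ∀ ε > 0, ∀ᶠ n in atTop, ∀ t, dist (bd (Φn n) t) (bd Φ t) < ε

/-- Compact families of marked domains: every sequence in the family has a subsequence which converges
to a member of the family. -/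
def CompactFamily {I : Type} (Φ : I → Dom) : Prop :=
  ∀ i : ℕ → I, ∃ (j : I) (φ : ℕ → ℕ), StrictMono φ ∧ DomTendsto (fun n => Φ (i (φ n))) (Φ j)

/-- **The uniform form of Q1 for the parameter `q`.** There is one chordal `SLE_κ(q)` trace `γ` in the
upper half-plane such that, for all marked Jordan domains `Φ`, all conformal maps `ψ` from the upper
half-plane onto them and all curves `G = ψ ∘ γ`:
* `ψ` and `G` exist, `G` is measurable, and its law depends only on the domain and the marks;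
* the expectation of `F(η)` for the interface `η` of a single lattice domain is within `ε` of
  `E F(G)` as soon as the lattice domain is `η`-close to the marked domain, where `η` depends on `F`
  and `ε` only, uniformly over compact families of marked domains;
* if the domains `Φn` converge to `Φ`, then their `SLE` curves, with the same Brownian motion
  and suitable conformal maps, converge almost surely uniformly to the curve of `Φ`;
* every marked Jordan domain (with an orientation-preserving parametrisation `Φ'` of its boundary)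
  has such lattice approximations for all small meshes. -/
def UniformLimit (q : ℝ) : Prop :=
  ∃ (Ω : Type) (_ : MeasurableSpace Ω) (P : Measure Ω) (_ : IsProbabilityMeasure P)
    (γ : Ω → ℝ → ℂ), IsSLE (kappa q) P γ ∧
    -- existence and measurability of the curves
    (∀ Φ : Dom, ∃ ψ, IsUniformizer Φ ψ) ∧
    (∀ (Φ : Dom) (ψ : ℂ → ℂ), IsUniformizer Φ ψ → ∃ G, IsCurve P γ Φ ψ G) ∧
    (∀ (Φ : Dom) (ψ : ℂ → ℂ) (G : Ω → C(unitInterval, ℂ)), IsUniformizer Φ ψ → IsCurve P γ Φ ψ G →
      ∀ F, BoundedContinuous F → AEMeasurable (fun ω => F (G ω)) P) ∧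
    -- the law depends only on the marked domain
    (∀ (Φ Φ' : Dom) (ψ ψ' : ℂ → ℂ) (G G' : Ω → C(unitInterval, ℂ)),
      IsUniformizer Φ ψ → IsCurve P γ Φ ψ G → IsUniformizer Φ' ψ' → IsCurve P γ Φ' ψ' G' →
      dom Φ' = dom Φ → bd Φ' 0 = bd Φ 0 → bd Φ' Real.pi = bd Φ Real.pi →
      ∀ F, BoundedContinuous F → ∫ ω, F (G' ω) ∂P = ∫ ω, F (G ω) ∂P) ∧
    -- convergence, uniformly over compact families of marked domains
    (∀ (I : Type) (Φ : I → Dom) (ψ : I → ℂ → ℂ) (G : I → Ω → C(unitInterval, ℂ)),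
      CompactFamily Φ → (∀ i, IsUniformizer (Φ i) (ψ i)) → (∀ i, IsCurve P γ (Φ i) (ψ i) (G i)) →
      ∀ F, BoundedContinuous F → ∀ ε > 0, ∃ η > 0, ∀ (i : I) (δ : ℝ) (N k : ℕ)
        (p : ZMod N → ℤ × ℤ) (S : Finset (ℤ × ℤ)), Close η (Φ i) δ k p S →
        (∀ A ⊆ edges S, ∃ x, IsInterface p k δ A x) ∧
        ∀ x : Finset (Sym2 (ℤ × ℤ)) → C(unitInterval, ℂ),
          (∀ A ⊆ edges S, IsInterface p k δ A (x A)) →
          |mean q p k S (fun A => F (x A)) - ∫ ω, F (G i ω) ∂P| < ε) ∧
    -- stability under perturbations of the marked domain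
    (∀ (Φ : Dom) (ψ : ℂ → ℂ) (G : Ω → C(unitInterval, ℂ)), IsUniformizer Φ ψ →
      IsCurve P γ Φ ψ G → ∀ Φn : ℕ → Dom, DomTendsto Φn Φ →
      ∃ (ψn : ℕ → ℂ → ℂ) (Gn : ℕ → Ω → C(unitInterval, ℂ)),
        (∀ n, IsUniformizer (Φn n) (ψn n) ∧ IsCurve P γ (Φn n) (ψn n) (Gn n)) ∧
        ∀ᵐ ω ∂P, Tendsto (fun n => Gn n ω) atTop (𝓝 (G ω))) ∧
    -- existence of lattice approximations
    ∀ Φ : Dom, ∃ Φ' : Dom, dom Φ' = dom Φ ∧ bd Φ' 0 = bd Φ 0 ∧ bd Φ' Real.pi = bd Φ Real.pi ∧
      ∀ η > 0, ∃ δ₀ > 0, ∀ δ, 0 < δ → δ < δ₀ →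
        ∃ (N k : ℕ) (p : ZMod N → ℤ × ℤ) (S : Finset (ℤ × ℤ)), Close η Φ' δ k p S

end Vale.Agent.P167.H947.Uni
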