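import Vale.Agent.P167.H947.Uni.Defs
import Vale.Agent.P167.QG.Exd3
import Vale.Agent.P167.H199.C.Stab

/-!
# P167: the uniform form of the convergence of the interfaces, from the sequential form
-/

set_option autoImplicit false

namespace Vale.Agent.P167.H947.Uni

open MeasureTheory Filter Topology Set
open Vale.Agent.P167.Final

section

variable {Ω : Type} [MeasurableSpace Ω] {P : Measure Ω} {γ : Ω → ℝ → ℂ} {q κ : ℝ}

/-- The body of `Question q`. -/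
def Body (q : ℝ) (P : Measure Ω) (γ : Ω → ℝ → ℂ) : Prop :=
  ∀ Φ : (ℝ × ℝ) ≃ₜ (ℝ × ℝ), (∃ ψ, IsUniformizer Φ ψ) ∧ ∀ ψ, IsUniformizer Φ ψ →
    ∃ G : Ω → C(unitInterval, ℂ),
      (∀ᵐ ω ∂P, G ω 0 = toC (Φ (circ 0)) ∧ G ω 1 = toC (Φ (circ Real.pi)) ∧
        ∀ t : unitInterval, (t : ℝ) < 1 → G ω t = ψ (γ ω (t / (1 - t)))) ∧
      (∀ F, BoundedContinuous F → AEMeasurable (fun ω => F (G ω)) P) ∧
      ∀ (δ : ℕ → ℝ) (N k : ℕ → ℕ) (p : ∀ n, ZMod (N n) → ℤ × ℤ)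
        (S : ℕ → Finset (ℤ × ℤ)), Approx Φ δ N k p S →
        (∀ n, ∀ A ⊆ edges (S n), ∃ η, IsInterface (p n) (k n) (δ n) A η) ∧
        ∀ η : ∀ n, Finset (Sym2 (ℤ × ℤ)) → C(unitInterval, ℂ),
          (∀ n, ∀ A ⊆ edges (S n), IsInterface (p n) (k n) (δ n) A (η n A)) →
          ∀ F, BoundedContinuous F →
            Tendsto (fun n => mean q (p n) (k n) (S n) fun A => F (η n A)) atTop
              (𝓝 (∫ ω, F (G ω) ∂P))

theorem IsCurve.ae_eq {Φ Φ' : Dom} {ψ : ℂ → ℂ} {G G' : Ω → C(unitInterval, ℂ)}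
    (h : IsCurve P γ Φ ψ G) (h' : IsCurve P γ Φ' ψ G') (hb : bd Φ' Real.pi = bd Φ Real.pi) :
    ∀ᵐ ω ∂P, G ω = G' ω := by
  filter_upwards [h, h'] with ω h1 h2
  ext t
  rcases lt_or_ge (t : ℝ) 1 with ht | ht
  · rw [h1.2.2 t ht, h2.2.2 t ht]
  · have h6 : t = 1 := Subtype.ext (le_antisymm t.2.2 ht)
    rw [h6, h1.2.1, h2.2.1, hb]

/-- All curves `G` have the properties of the one in `Question q`. -/
theorem conv (h : Body q P γ) {Φ : Dom} {ψ : ℂ → ℂ} {G : Ω → C(unitInterval, ℂ)}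
    (hψ : IsUniformizer Φ ψ) (hG : IsCurve P γ Φ ψ G) :
    (∀ F, BoundedContinuous F → AEMeasurable (fun ω => F (G ω)) P) ∧
    ∀ (δ : ℕ → ℝ) (N k : ℕ → ℕ) (p : ∀ n, ZMod (N n) → ℤ × ℤ)
      (S : ℕ → Finset (ℤ × ℤ)), Approx Φ δ N k p S →
      (∀ n, ∀ A ⊆ edges (S n), ∃ η, IsInterface (p n) (k n) (δ n) A η) ∧
      ∀ η : ∀ n, Finset (Sym2 (ℤ × ℤ)) → C(unitInterval, ℂ),
        (∀ n, ∀ A ⊆ edges (S n), IsInterface (p n) (k n) (δ n) A (η n A)) →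
        ∀ F, BoundedContinuous F →
          Tendsto (fun n => mean q (p n) (k n) (S n) fun A => F (η n A)) atTop
            (𝓝 (∫ ω, F (G ω) ∂P)) := by
  obtain ⟨G₀, h1, h2, h3⟩ := (h Φ).2 ψ hψ
  have h1' : IsCurve P γ Φ ψ G₀ := h1
  have h4 : ∀ᵐ ω ∂P, G₀ ω = G ω := h1'.ae_eq hG rfl
  refine ⟨fun F hF => (h2 F hF).congr (h4.mono fun ω hω => by simp only [hω]),
    fun δ N k p S hA => ?_⟩
  obtain ⟨h5, h6⟩ := h3 δ N k p S hA
  refine ⟨h5, fun c hc F hF => ?_⟩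
  have h7 : ∫ ω, F (G ω) ∂P = ∫ ω, F (G₀ ω) ∂P :=
    integral_congr_ae (h4.mono fun ω hω => by simp only [hω])
  rw [h7]
  exact h6 c hc F hF

theorem transfer {Φ Φ' : Dom} {ψ : ℂ → ℂ} (hψ : IsUniformizer Φ ψ) (hd : dom Φ' = dom Φ)
    (ha : bd Φ' 0 = bd Φ 0) (hb : bd Φ' Real.pi = bd Φ Real.pi) : IsUniformizer Φ' ψ := by
  obtain ⟨a1, a2, a3, a4, a5, a6⟩ := hψ
  refine ⟨a1, a2, by rw [hd]; exact a3, a4, a5.trans ha.symm, ?_⟩
  have h1 : toC (Φ' (circ Real.pi)) = toC (Φ (circ Real.pi)) := hb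
  rw [h1]
  exact a6

theorem transferG {Φ Φ' : Dom} {ψ : ℂ → ℂ} {G : Ω → C(unitInterval, ℂ)}
    (hG : IsCurve P γ Φ ψ G) (ha : bd Φ' 0 = bd Φ 0) (hb : bd Φ' Real.pi = bd Φ Real.pi) :
    IsCurve P γ Φ' ψ G := by
  filter_upwards [hG] with ω h
  exact ⟨h.1.trans ha.symm, h.2.1.trans hb.symm, h.2.2⟩

/-- **The law depends only on the marked domain.** -/
theorem law_eq (h : Body q P γ) {Φ Φ' : Dom} {ψ ψ' : ℂ → ℂ} {G G' : Ω → C(unitInterval, ℂ)}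
    (hψ : IsUniformizer Φ ψ) (hG : IsCurve P γ Φ ψ G) (hψ' : IsUniformizer Φ' ψ')
    (hG' : IsCurve P γ Φ' ψ' G') (hd : dom Φ' = dom Φ) (ha : bd Φ' 0 = bd Φ 0)
    (hb : bd Φ' Real.pi = bd Φ Real.pi) {F : C(unitInterval, ℂ) → ℝ} (hF : BoundedContinuous F) :
    ∫ ω, F (G' ω) ∂P = ∫ ω, F (G ω) ∂P := by
  obtain ⟨Ψ, -, e1, e2, e3, -, h4⟩ := H634.Apx.exap_all Φ
  obtain ⟨N, k, p, S, hA⟩ := h4 (fun n => 1 / ((n : ℝ) + 1)) (fun n => by positivity)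
    tendsto_one_div_add_atTop_nhds_zero_nat
  have hA' : Approx Ψ (fun n => 1 / ((n : ℝ) + 1)) N k p S := hA
  have f1 : dom Ψ = dom Φ := e1
  have f2 : bd Ψ 0 = bd Φ 0 := congrArg toC e2
  have f3 : bd Ψ Real.pi = bd Φ Real.pi := congrArg toC e3
  have u1 := transfer hψ f1 f2 f3
  have u2 := transfer hψ' (f1.trans hd.symm) (f2.trans ha.symm) (f3.trans hb.symm)
  have g1 := transferG hG f2 f3
  have g2 := transferG hG' (f2.trans ha.symm) (f3.trans hb.symm)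
  obtain ⟨c1, c2⟩ := (conv h u1 g1).2 _ _ _ _ _ hA'
  obtain ⟨-, c3⟩ := (conv h u2 g2).2 _ _ _ _ _ hA'
  have h5 : ∀ n, ∃ x : Finset (Sym2 (ℤ × ℤ)) → C(unitInterval, ℂ),
      ∀ A ⊆ edges (S n), IsInterface (p n) (k n) (1 / ((n : ℝ) + 1)) A (x A) := by
    intro n
    classical
    refine ⟨fun A => if hA : A ⊆ edges (S n) then (c1 n A hA).choose else 0, fun A hA => ?_⟩
    simp only [hA, dif_pos]
    exact (c1 n A hA).choose_spec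
  choose x hx using h5
  exact tendsto_nhds_unique (c3 x hx F hF) (c2 x hx F hF)

/-- **Stability.** -/
theorem stab (hS : IsSLE κ P γ) (h : Body q P γ) {Φ : Dom} {ψ : ℂ → ℂ}
    {G : Ω → C(unitInterval, ℂ)} (hψ : IsUniformizer Φ ψ) (hG : IsCurve P γ Φ ψ G)
    {Φn : ℕ → Dom} (hΦ : DomTendsto Φn Φ) :
    ∃ (ψn : ℕ → ℂ → ℂ) (Gn : ℕ → Ω → C(unitInterval, ℂ)),
      (∀ n, IsUniformizer (Φn n) (ψn n) ∧ IsCurve P γ (Φn n) (ψn n) (Gn n)) ∧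
      ∀ᵐ ω ∂P, Tendsto (fun n => Gn n ω) atTop (𝓝 (G ω)) := by
  obtain ⟨ψn, h1, h2⟩ := H199.C.s_stab Φ ψ hψ Φn hΦ
  have h3 : ∀ n, ∃ Gn, IsCurve P γ (Φn n) (ψn n) Gn := by
    intro n
    obtain ⟨G₀, h4, -, -⟩ := (h (Φn n)).2 _ (h1 n)
    exact ⟨G₀, h4⟩
  choose Gn hGn using h3
  refine ⟨ψn, Gn, fun n => ⟨h1 n, hGn n⟩, ?_⟩
  obtain ⟨B, hB, hT⟩ := hS
  filter_upwards [hT, hG, ae_all_iff.2 hGn] with ω hω h3 h4
  rw [Metric.tendsto_atTop]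
  intro ε hε
  rw [Metric.tendstoUniformlyOn_iff] at h2
  obtain ⟨n₀, hn₀⟩ := eventually_atTop.1 ((h2 (ε / 2) (by positivity)).and
    (hΦ (ε / 2) (by positivity)))
  refine ⟨n₀, fun n hn => ?_⟩
  obtain ⟨h5, h6⟩ := hn₀ n hn
  refine (ContinuousMap.dist_le (C := ε / 2) (by positivity)).2 (fun t => ?_) |>.trans_lt
    (by linarith)
  rcases lt_or_ge (t : ℝ) 1 with ht | ht
  · rw [(h4 n).2.2 t ht, h3.2.2 t ht, dist_comm]
    refine (h5 _ ?_).le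
    exact hω.im_nonneg _ (div_nonneg t.2.1 (by linarith))
  · have h7 : t = 1 := Subtype.ext (le_antisymm t.2.2 ht)
    rw [h7, (h4 n).2.1, h3.2.1]
    exact (h6 _).le

theorem tendsto_mean [IsProbabilityMeasure P] {G : Ω → C(unitInterval, ℂ)}
    {Gn : ℕ → Ω → C(unitInterval, ℂ)} {F : C(unitInterval, ℂ) → ℝ} (hF : BoundedContinuous F)
    (hm : ∀ n, AEMeasurable (fun ω => F (Gn n ω)) P)
    (hlim : ∀ᵐ ω ∂P, Tendsto (fun n => Gn n ω) atTop (𝓝 (G ω))) :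
    Tendsto (fun n => ∫ ω, F (Gn n ω) ∂P) atTop (𝓝 (∫ ω, F (G ω) ∂P)) := by
  obtain ⟨M, hM⟩ := hF.1
  refine tendsto_integral_of_dominated_convergence (fun _ => M)
    (fun n => (hm n).aestronglyMeasurable) (integrable_const _)
    (fun n => Eventually.of_forall fun ω => by rw [Real.norm_eq_abs]; exact hM _) ?_
  filter_upwards [hlim] with ω hω
  exact ((continuous_of hF).tendsto _).comp hω

/-- **Uniform convergence over compact families.** -/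
theorem uniform [IsProbabilityMeasure P] (hS : IsSLE κ P γ) (h : Body q P γ) {I : Type}
    {Φ : I → Dom} {ψ : I → ℂ → ℂ} {G : I → Ω → C(unitInterval, ℂ)} (hK : CompactFamily Φ)
    (hψ : ∀ i, IsUniformizer (Φ i) (ψ i)) (hG : ∀ i, IsCurve P γ (Φ i) (ψ i) (G i))
    {F : C(unitInterval, ℂ) → ℝ} (hF : BoundedContinuous F) {ε : ℝ} (hε : 0 < ε) :
    ∃ η > 0, ∀ (i : I) (δ : ℝ) (N k : ℕ) (p : ZMod N → ℤ × ℤ) (S : Finset (ℤ × ℤ)),
      Close η (Φ i) δ k p S →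
      ∀ x : Finset (Sym2 (ℤ × ℤ)) → C(unitInterval, ℂ),
        (∀ A ⊆ edges S, IsInterface p k δ A (x A)) →
        |mean q p k S (fun A => F (x A)) - ∫ ω, F (G i ω) ∂P| < ε := by
  by_contra hcon
  have h1 : ∀ n : ℕ, ∃ (i : I) (δ : ℝ) (N k : ℕ) (p : ZMod N → ℤ × ℤ) (S : Finset (ℤ × ℤ))
      (x : Finset (Sym2 (ℤ × ℤ)) → C(unitInterval, ℂ)), Close (1 / ((n : ℝ) + 1)) (Φ i) δ k p S ∧
      (∀ A ⊆ edges S, IsInterface p k δ A (x A)) ∧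
      ε ≤ |mean q p k S (fun A => F (x A)) - ∫ ω, F (G i ω) ∂P| := by
    intro n
    by_contra h2
    push Not at h2
    exact hcon ⟨1 / ((n : ℝ) + 1), by positivity, fun i δ N k p S hC x hx =>
      h2 i δ N k p S x hC hx⟩
  choose i δ N k p S x hC hx hge using h1
  obtain ⟨j, φ, hφ, hΦ⟩ := hK i
  have hz := (tendsto_one_div_add_atTop_nhds_zero_nat (𝕜 := ℝ)).comp hφ.tendsto_atTop
  have hA : Approx (Φ j) (fun n => δ (φ n)) (fun n => N (φ n)) (fun n => k (φ n))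
      (fun n => p (φ n)) (fun n => S (φ n)) := by
    refine ⟨fun n => ⟨(hC _).mesh_pos, (hC _).free, (hC _).wired, (hC _).polygon,
      (hC _).encloses⟩, ?_, fun e he => ?_⟩
    · exact squeeze_zero (fun n => (hC _).mesh_pos.le) (fun n => (hC (φ n)).mesh_lt.le) hz
    · filter_upwards [hz.eventually (gt_mem_nhds (half_pos he)), hΦ (e / 2) (by positivity)]
        with n hn1 hn2
      obtain ⟨s, s1, s2, s3, s4, s5⟩ := (hC (φ n)).close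
      refine ⟨s, s1, s2, s3, s4, fun i' hi' t ht => ?_⟩
      have h3 := s5 i' hi' t ht
      have h4 := hn2 t
      simp only [Function.comp_apply] at hn1
      refine (dist_triangle _ (bd (Φ (i (φ n))) t) _).trans_lt ?_
      have h5 : dist (bd (Φ (i (φ n))) t) (toC (Φ j (circ t))) < e / 2 := h4
      linarith
  have h2 := ((conv h (hψ j) (hG j)).2 _ _ _ _ _ hA).2 (fun n => x (φ n)) (fun n => hx (φ n)) F hF
  obtain ⟨ψn, Gn, h3, h4⟩ := stab hS h (hψ j) (hG j) hΦ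
  have h5 := tendsto_mean hF (fun n => (conv h (h3 n).1 (h3 n).2).1 F hF) h4
  have h6 : ∀ n, ∫ ω, F (Gn n ω) ∂P = ∫ ω, F (G (i (φ n)) ω) ∂P := fun n =>
    law_eq h (hψ _) (hG _) (h3 n).1 (h3 n).2 rfl rfl rfl hF
  simp only [h6] at h5
  have h7 := h2.sub h5
  rw [sub_self] at h7
  obtain ⟨n, hn⟩ := (Metric.tendsto_nhds.1 h7 ε hε).exists
  rw [Real.dist_eq, sub_zero] at hn
  exact absurd (hge (φ n)) (not_le.2 hn)

end

/-- Existence of lattice approximations. -/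
theorem exists_close (Φ : Dom) : ∃ Φ' : Dom, dom Φ' = dom Φ ∧ bd Φ' 0 = bd Φ 0 ∧
    bd Φ' Real.pi = bd Φ Real.pi ∧ ∀ η > 0, ∃ δ₀ > 0, ∀ δ, 0 < δ → δ < δ₀ →
      ∃ (N k : ℕ) (p : ZMod N → ℤ × ℤ) (S : Finset (ℤ × ℤ)), Close η Φ' δ k p S := by
  obtain ⟨Ψ, -, e1, e2, e3, -, h4⟩ := H634.Apx.exap_all Φ
  refine ⟨Ψ, e1, congrArg toC e2, congrArg toC e3, fun η hη => ?_⟩
  by_contra hcon
  have h1 : ∀ n : ℕ, ∃ δ : ℝ, 0 < δ ∧ δ < 1 / ((n : ℝ) + 1) ∧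
      ∀ (N k : ℕ) (p : ZMod N → ℤ × ℤ) (S : Finset (ℤ × ℤ)), ¬ Close η Ψ δ k p S := by
    intro n
    by_contra h2
    push Not at h2
    exact hcon ⟨1 / ((n : ℝ) + 1), by positivity, fun δ h3 h4 => h2 δ h3 h4⟩
  choose δ h1 h2 h3 using h1
  have hδ : Tendsto δ atTop (𝓝 0) :=
    squeeze_zero (fun n => (h1 n).le) (fun n => (h2 n).le) tendsto_one_div_add_atTop_nhds_zero_nat
  obtain ⟨N, k, p, S, hA⟩ := h4 δ h1 hδ
  have hA' : Approx Ψ δ N k p S := hA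
  obtain ⟨n, hn1, hn2⟩ := ((hA'.2.2 η hη).and (hδ.eventually (gt_mem_nhds hη))).exists
  obtain ⟨a1, a2, a3, a4, a5⟩ := hA'.1 n
  exact h3 n _ _ _ _ ⟨a1, hn2, a2, a3, a4, a5, hn1⟩

/-- **The uniform form follows from the sequential form.** -/
theorem uniform_of {q : ℝ} (h : Question q) : UniformLimit q := by
  obtain ⟨Ω, mΩ, P, hP, γ, hS, h⟩ := h
  have h' : Body q P γ := h
  refine ⟨Ω, mΩ, P, hP, γ, hS, fun Φ => (h Φ).1, fun Φ ψ hψ => ?_, fun Φ ψ G hψ hG =>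
    (conv h' hψ hG).1, fun Φ Φ' ψ ψ' G G' hψ hG hψ' hG' hd ha hb F hF =>
    law_eq h' hψ hG hψ' hG' hd ha hb hF, fun I Φ ψ G hK hψ hG F hF ε hε => ?_,
    fun Φ ψ G hψ hG Φn hΦ => stab hS h' hψ hG hΦ, exists_close⟩
  · obtain ⟨G, hG, -⟩ := (h Φ).2 ψ hψ
    exact ⟨G, hG⟩
  · obtain ⟨η, hη, h1⟩ := uniform hS h' hK hψ hG hF hε
    refine ⟨η, hη, fun i δ N k p S hC => ⟨fun A hA => ?_, h1 i δ N k p S hC⟩⟩
    exact ⟨_, E2.isInterface_crv hC.polygon hC.encloses hC.free hC.wired hA δ⟩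

end Vale.Agent.P167.H947.Uni
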